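import Vale.Agent.P254.SP.H72.Stab
import Vale.Agent.P254.SP.H351.Eq5
import Vale.Agent.P254.SP.H567.StmtLim
import Vale.Agent.P254.SP.POS.Fin
import Vale.Agent.P254.SP.H151.Top0
import Vale.Agent.P254.SP.H151.Top1
import Vale.Agent.P254.H156.F1inst
import Vale.Agent.P254.S.H979.Push

/-!
P254, line (SP_0), final composition (helper72): everything from the column certificate with
remainder `StmtCols`.
-/

namespace Vale.Agent.P254.SP.E72

open Vale.Agent.P254.S Vale.Agent.P254.SP

/-- the sharp inequality for regular potentials -/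
theorem stmtS0 {P : F1} (h : StmtCols P) : StmtS 0 :=
  SP151.stmtS0_of (Eq630.stmtFin_of_stab (stmtStab_of h)) Pos.stmtPos H979.stmtPush

/-- the equality case for cone measures -/
theorem stmtEq {P : F1} (h : StmtCols P) : Eq657.StmtEq :=
  Eq351.stmtEq_of (SP567.stmtLim P) (stmtStab_of h) Pos.stmtPos H979.stmtPush

/-- **P254, first question, in full**, from the column certificate -/
theorem p254_of {P : F1} (h : StmtCols P) (n : ℕ) (hn : 1 ≤ n) (K S : Set (Fin n → ℝ))
    (hK : IsConvexBody K) (hS : IsSimplex S) :
    isoConst K ≤ isoConst S ∧ (isoConst K = isoConst S → IsSimplex K) :=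
  SP151.isoConst_full (stmtS0 h) (stmtEq h) n hn K S hK hS

/-- **P248, second question, in full**, from the column certificate -/
theorem p248_of {P : F1} (h : StmtCols P) {n : ℕ} {K : Set (P248.H432.E n)}
    (hK : P248.IsConvexBody K) : P248.H432.MahlerFor K :=
  SP151.mahler_full (stmtS0 h) (stmtEq h) hK

end Vale.Agent.P254.SP.E72
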